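import Vale.Agent.P092.Gen.FinDefs
import Vale.Agent.P092.Gen.NonVirt
import Vale.Agent.P092.Gen.PropT
import Vale.Agent.P092.Gen.VN2
import Vale.Agent.P092.Gen.ICCa
import Vale.Agent.P092.Gen.ICCb

namespace Vale.Agent.Results.P092.GeneralRigidityFails

open Vale.Agent.P092 Vale.Agent.P092.Gen

universe u v w

/-- Connes' rigidity conjecture for all ICC groups with property (T) fails, even virtually. -/
theorem result :
    ∃ (G₀ G₁ : Type) (_ : Group G₀) (_ : Group G₁),
      Countable G₀ ∧ Countable G₁ ∧ IsICC G₀ ∧ IsICC G₁ ∧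
      PropertyT.{u} G₀ ∧ PropertyT.{u} G₁ ∧
      SameAlgebras.{v, w} G₀ G₁ ∧ NotVirtuallyIso G₀ G₁ :=
  ⟨GG false, GG true, inferInstance, inferInstance, inferInstance, inferInstance,
    icc false, icc true, propT false, propT true,
    fun _ _ _ _ _ _ _ _ b₀ b₁ => vn' b₀ b₁, nonvirt⟩

end Vale.Agent.Results.P092.GeneralRigidityFails
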